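import Vale.Agent.P092.H820.Pn

/-!
P092 (helper947), block [N-GR]: the Grassmannians `Gr k n d` of `k^n` over a local field `k` (any
nontrivially normed proper field), as compact Hausdorff second countable homogeneous spaces of
`SL_n(k)`. File 1: definition, transitivity, topology.
-/

set_option linter.all false

open TopologicalSpace Topology Module Set
open scoped LinearAlgebra.Projectivization Matrix Pointwise

namespace Vale.Agent.P092.H947

section alg

/-- the group `SL_n(k)` -/
abbrev SLn (n : ℕ) (k : Type*) [Field k] := Matrix.SpecialLinearGroup (Fin n) k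

/-- the `d`-dimensional subspaces of `k^n` -/
def Gr (k : Type*) [Field k] (n d : ℕ) : Type _ :=
  {S : Submodule k (Fin n → k) // finrank k S = d}

variable {k : Type*} [Field k] {n d e : ℕ}

theorem smul_eq_map (g : SLn n k) (S : Submodule k (Fin n → k)) :
    g • S = S.map (Matrix.SpecialLinearGroup.toLin' g).toLinearMap := by
  ext v
  constructor
  · rintro ⟨w, hw, rfl⟩
    exact ⟨w, hw, rfl⟩
  · rintro ⟨w, hw, rfl⟩
    exact ⟨w, hw, rfl⟩

theorem finrank_smul (g : SLn n k) (S : Submodule k (Fin n → k)) :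
    finrank k (g • S : Submodule k (Fin n → k)) = finrank k S := by
  rw [smul_eq_map]
  exact LinearEquiv.finrank_map_eq _ S

instance : MulAction (SLn n k) (Gr k n d) where
  smul g S := ⟨g • S.1, by rw [finrank_smul]; exact S.2⟩
  one_smul S := Subtype.ext (one_smul _ _)
  mul_smul g h S := Subtype.ext (mul_smul _ _ _)

theorem coe_smul (g : SLn n k) (S : Gr k n d) : (g • S).1 = g • S.1 := rfl

theorem smul_le_iff (g : SLn n k) (S T : Submodule k (Fin n → k)) :
    g • S ≤ T ↔ ∀ v ∈ S, g • v ∈ T := by
  constructor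
  · intro h v hv
    exact h (Submodule.smul_mem_pointwise_smul v g S hv)
  · rintro h _ ⟨w, hw, rfl⟩
    exact h w hw

theorem mem_smul_iff (g : SLn n k) (S : Submodule k (Fin n → k)) (v : Fin n → k) :
    v ∈ g • S ↔ g⁻¹ • v ∈ S := by
  constructor
  · rintro ⟨w, hw, rfl⟩
    change g⁻¹ • g • w ∈ S
    rwa [inv_smul_smul]
  · intro h
    exact ⟨g⁻¹ • v, h, smul_inv_smul g v⟩

theorem smul_le_smul_iff' (g h : SLn n k) (S T : Submodule k (Fin n → k)) :
    g • S ≤ h • T ↔ ∀ v ∈ S, h⁻¹ • g • v ∈ T := by
  rw [smul_le_iff]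
  exact forall₂_congr fun v _ => mem_smul_iff h T _

theorem smul_mono (g : SLn n k) {S T : Submodule k (Fin n → k)} (h : S ≤ T) : g • S ≤ g • T := by
  rw [smul_le_smul_iff']
  intro v hv
  rw [inv_smul_smul]
  exact h hv

theorem gr_eq_of_le {S T : Gr k n d} (h : S.1 ≤ T.1) : S = T :=
  Subtype.ext (Submodule.eq_of_le_of_finrank_eq h (S.2.trans T.2.symm))

theorem gr_le_dim (S : Gr k n d) : d ≤ n := by
  have := Submodule.finrank_le S.1
  rw [S.2] at this
  simpa using this

/-- the standard subspace -/
def std (k : Type*) [Field k] (n d : ℕ) : Submodule k (Fin n → k) where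
  carrier := {v | ∀ i : Fin n, d ≤ i.val → v i = 0}
  add_mem' := by
    intro a b ha hb i hi
    simp [ha i hi, hb i hi]
  zero_mem' := by intro i _; rfl
  smul_mem' := by
    intro c a ha i hi
    simp [ha i hi]

theorem mem_std {v : Fin n → k} : v ∈ std k n d ↔ ∀ i : Fin n, d ≤ i.val → v i = 0 := Iff.rfl

theorem finrank_std (h : d ≤ n) : finrank k (std k n d) = d := by
  classical
  let f : (Fin d → k) →ₗ[k] (Fin n → k) :=
    { toFun := fun v i => if hi : i.val < d then v ⟨i.val, hi⟩ else 0
      map_add' := by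
        intro a b
        funext i
        by_cases hi : i.val < d <;> simp [hi]
      map_smul' := by
        intro c a
        funext i
        by_cases hi : i.val < d <;> simp [hi] }
  have hinj : Function.Injective f := by
    intro a b hab
    funext j
    have := congrFun hab (Fin.castLE h j)
    simpa [f] using this
  have hr : LinearMap.range f = std k n d := by
    ext v
    constructor
    · rintro ⟨w, rfl⟩ i hi
      simp [f, Nat.not_lt.2 hi]
    · intro hv
      refine ⟨fun j => v (Fin.castLE h j), ?_⟩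
      funext i
      by_cases hi : i.val < d
      · simp [f, hi]
      · simp [f, hi, hv i (Nat.not_lt.1 hi)]
  rw [← hr, LinearMap.finrank_range_of_inj hinj]
  simp

end alg

section top

variable {k : Type*} [Field k] [TopologicalSpace k] [IsTopologicalRing k] {n d e : ℕ}

instance topGr : TopologicalSpace (Gr k n d) :=
  ⨆ S : Gr k n d, TopologicalSpace.coinduced (fun g : SLn n k => g • S) inferInstance

theorem isOpen_iff {U : Set (Gr k n d)} :
    IsOpen U ↔ ∀ S : Gr k n d, IsOpen ((fun g : SLn n k => g • S) ⁻¹' U) := by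
  change IsOpen[⨆ S : Gr k n d, TopologicalSpace.coinduced (fun g : SLn n k => g • S) _] U ↔ _
  rw [isOpen_iSup_iff]
  exact Iff.rfl

theorem orb_continuous (S : Gr k n d) : Continuous fun g : SLn n k => g • S :=
  ⟨fun U hU => isOpen_iff.1 hU S⟩

theorem orb_open (S : Gr k n d) : IsOpenMap fun g : SLn n k => g • S := by
  intro U hU
  rw [isOpen_iff]
  intro T
  have : (fun g : SLn n k => g • T) ⁻¹' ((fun g : SLn n k => g • S) '' U) =
      ⋃ s : {s : SLn n k // s • S = T}, (fun g : SLn n k => g * s.1) ⁻¹' U := by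
    ext g
    simp only [mem_preimage, mem_image, mem_iUnion]
    constructor
    · rintro ⟨u, hu, h⟩
      refine ⟨⟨g⁻¹ * u, ?_⟩, ?_⟩
      · rw [mul_smul, h, inv_smul_smul]
      · simpa using hu
    · rintro ⟨⟨s, hs⟩, h⟩
      exact ⟨g * s, h, by rw [mul_smul, hs]⟩
  rw [this]
  exact isOpen_iUnion fun s => hU.preimage (continuous_mul_const s.1)

end top

/-! ### adapted bases (Riesz), transitivity, compactness -/

section riesz

variable {k : Type*} [NontriviallyNormedField k] [CompleteSpace k] {n : ℕ}

/-- one step -/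
theorem step {R : ℝ} {c : k} (hc : 1 < ‖c‖) (hR : ‖c‖ < R) (F U : Submodule k (Fin n → k))
    (hFU : F ≤ U) (hlt : finrank k F < finrank k U) :
    ∃ x ∈ U, ‖x‖ ≤ R ∧ ∀ y ∈ F, 1 ≤ ‖x - y‖ := by
  let F' : Submodule k U := F.comap U.subtype
  have hcl : IsClosed (F' : Set U) := (Submodule.closed_of_finiteDimensional F).preimage
    continuous_subtype_val
  have hne : ∃ x : U, x ∉ F' := by
    by_contra h
    push Not at h
    have : U ≤ F := fun x hx => h ⟨x, hx⟩
    exact absurd (Submodule.finrank_mono this) (not_le.2 hlt)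
  obtain ⟨x, hx, h⟩ := riesz_lemma_of_norm_lt hc hR hcl hne
  exact ⟨x.1, x.2, hx, fun y hy => h ⟨y, hFU hy⟩ hy⟩

theorem exists_seq {R : ℝ} {c : k} (hc : 1 < ‖c‖) (hR : ‖c‖ < R) {d : ℕ}
    (T : Submodule k (Fin n → k)) (hT : finrank k T = d) (m : ℕ) (hm : m ≤ n) :
    ∃ v : ℕ → (Fin n → k), ∀ i < m, ‖v i‖ ≤ R ∧ (i < d → v i ∈ T) ∧
      ∀ y ∈ Submodule.span k (v '' Iio i), 1 ≤ ‖v i - y‖ := by
  classical
  induction m with
  | zero => exact ⟨0, fun i hi => absurd hi (Nat.not_lt_zero _)⟩
  | succ m ih =>
    obtain ⟨v, hv⟩ := ih (Nat.le_of_succ_le hm)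
    set F : Submodule k (Fin n → k) := Submodule.span k (v '' Iio m) with hF
    have hFr : finrank k F ≤ m := by
      have h1 : (v '' Iio m) = ((Finset.range m).image v : Finset (Fin n → k)) := by
        ext x; simp
      have h2 : finrank k F ≤ ((Finset.range m).image v).card := by
        rw [hF, h1]
        exact finrank_span_finset_le_card _
      exact h2.trans (Finset.card_image_le.trans (by simp))
    obtain ⟨x, hxU, hxR, hx⟩ : ∃ x, (m < d → x ∈ T) ∧ ‖x‖ ≤ R ∧ ∀ y ∈ F, 1 ≤ ‖x - y‖ := by
      by_cases hmd : m < d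
      · obtain ⟨x, h1, h2, h3⟩ := step hc hR F T (by
          rw [hF, Submodule.span_le]
          rintro _ ⟨i, hi, rfl⟩
          exact (hv i hi).2.1 (lt_trans hi hmd)) (by omega)
        exact ⟨x, fun _ => h1, h2, h3⟩
      · obtain ⟨x, h1, h2, h3⟩ := step hc hR F ⊤ le_top (by
          rw [finrank_top]
          simp
          omega)
        exact ⟨x, fun h => absurd h hmd, h2, h3⟩
    refine ⟨Function.update v m x, fun i hi => ?_⟩
    have himg : ∀ i ≤ m, Function.update v m x '' Iio i = v '' Iio i := by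
      intro i hi
      refine image_congr fun j hj => ?_
      exact Function.update_of_ne (ne_of_lt (lt_of_lt_of_le hj hi)) _ _
    rcases Nat.lt_succ_iff_lt_or_eq.1 hi with h | h
    · rw [Function.update_of_ne (ne_of_lt h), himg i h.le]
      exact hv i h
    · subst h
      rw [Function.update_self, himg i le_rfl]
      exact ⟨hxR, hxU, hx⟩

/-- the compact set of adapted bases -/
def AB (k : Type*) [NontriviallyNormedField k] (n : ℕ) (R : ℝ) : Set (Fin n → Fin n → k) :=
  {v | (∀ i, ‖v i‖ ≤ R) ∧
    ∀ i, ∀ a : Fin n → k, 1 ≤ ‖v i - ∑ j, if j < i then a j • v j else 0‖}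

theorem AB_closed (R : ℝ) : IsClosed (AB k n R) := by
  have e : AB k n R = (⋂ i, {v | ‖v i‖ ≤ R}) ∩
      ⋂ i, ⋂ a : Fin n → k, {v | 1 ≤ ‖v i - ∑ j, if j < i then a j • v j else 0‖} := by
    ext v
    simp [AB]
  rw [e]
  refine (isClosed_iInter fun i => isClosed_le (continuous_apply i).norm continuous_const).inter ?_
  refine isClosed_iInter fun i => isClosed_iInter fun a => isClosed_le continuous_const ?_
  refine ((continuous_apply i).sub (continuous_finset_sum _ fun j _ => ?_)).norm
  by_cases h : j < i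
  · simp only [h, if_true]
    exact (continuous_apply j).const_smul (a j)
  · simp only [h, if_false]
    exact continuous_const

theorem AB_compact [ProperSpace k] (R : ℝ) : IsCompact (AB k n R) := by
  refine Metric.isCompact_of_isClosed_isBounded (AB_closed R) ?_
  refine (Metric.isBounded_closedBall (x := (0 : Fin n → Fin n → k)) (r := max R 0)).subset ?_
  intro v hv
  rw [mem_closedBall_zero_iff]
  refine (pi_norm_le_iff_of_nonneg (le_max_right _ _)).2 fun i => ?_
  exact (hv.1 i).trans (le_max_left _ _)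

theorem exists_AB {R : ℝ} {c : k} (hc : 1 < ‖c‖) (hR : ‖c‖ < R) {d : ℕ}
    (T : Submodule k (Fin n → k)) (hT : finrank k T = d) :
    ∃ v ∈ AB k n R, ∀ i : Fin n, i.val < d → v i ∈ T := by
  obtain ⟨v, hv⟩ := exists_seq hc hR T hT n le_rfl
  refine ⟨fun i => v i, ⟨fun i => (hv i i.2).1, fun i a => ?_⟩, fun i hi => (hv i i.2).2.1 hi⟩
  refine (hv i i.2).2.2 _ (Submodule.sum_mem _ fun j _ => ?_)
  by_cases h : j < i
  · rw [if_pos h]
    exact Submodule.smul_mem _ _ (Submodule.subset_span ⟨j.val, h, rfl⟩)
  · rw [if_neg h]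
    exact Submodule.zero_mem _

theorem AB_li {R : ℝ} {v : Fin n → Fin n → k} (hv : v ∈ AB k n R) : LinearIndependent k v := by
  classical
  rw [Fintype.linearIndependent_iff]
  intro a ha
  by_contra hne
  push Not at hne
  let s : Finset (Fin n) := Finset.univ.filter fun i => a i ≠ 0
  have hs : s.Nonempty := by
    obtain ⟨i, hi⟩ := hne
    exact ⟨i, by simp [s, hi]⟩
  set i := s.max' hs with hi
  have hai : a i ≠ 0 := by
    have := Finset.max'_mem s hs
    simpa [s] using this
  have hgt : ∀ j, i < j → a j = 0 := by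
    intro j hj
    by_contra h
    have := Finset.le_max' s j (by simp [s, h])
    exact absurd hj (not_lt.2 this)
  have h1 := hv.2 i (fun j => -(a i)⁻¹ * a j)
  have h2 : (∑ j, if j < i then (-(a i)⁻¹ * a j) • v j else 0) = v i := by
    have h3 : (∑ j, if j < i then a j • v j else 0) + a i • v i = 0 := by
      have : ∀ j, a j • v j = (if j < i then a j • v j else 0) + (if j = i then a i • v i else 0) := by
        intro j
        rcases lt_trichotomy j i with h | h | h
        · simp [h, h.ne]
        · simp [h]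
        · simp [hgt j h, h.ne', not_lt.2 h.le]
      have h5 := ha
      rw [Finset.sum_congr rfl fun j _ => this j, Finset.sum_add_distrib] at h5
      simpa using h5
    have h4 : (∑ j, if j < i then (-(a i)⁻¹ * a j) • v j else 0) =
        -(a i)⁻¹ • ∑ j, if j < i then a j • v j else 0 := by
      rw [Finset.smul_sum]
      refine Finset.sum_congr rfl fun j _ => ?_
      by_cases h : j < i
      · simp only [h, if_true, smul_smul]
      · simp [h]
    rw [h4, eq_neg_of_add_eq_zero_left h3, smul_neg, neg_smul, neg_neg, smul_smul,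
      inv_mul_cancel₀ hai, one_smul]
  rw [h2, sub_self, norm_zero] at h1
  linarith

/-- the matrix with columns `v i`, the last one normalised so that the determinant is `1` -/
noncomputable def mat (v : Fin n → Fin n → k) : Matrix (Fin n) (Fin n) k :=
  (Matrix.of v)ᵀ * Matrix.diagonal fun j => if j.val + 1 = n then ((Matrix.of v).det)⁻¹ else 1

theorem AB_det {R : ℝ} {v : Fin n → Fin n → k} (hv : v ∈ AB k n R) : (Matrix.of v).det ≠ 0 := by
  have h := AB_li hv
  have h2 : IsUnit (Matrix.of v) := Matrix.linearIndependent_rows_iff_isUnit.1 h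
  exact ((Matrix.isUnit_iff_isUnit_det _).1 h2).ne_zero

theorem mat_det {R : ℝ} {v : Fin n → Fin n → k} (hv : v ∈ AB k n R) : (mat v).det = 1 := by
  rw [mat, Matrix.det_mul, Matrix.det_transpose, Matrix.det_diagonal]
  rcases n with _ | n
  · simp
  · rw [Fin.prod_univ_castSucc]
    have : ∀ i : Fin n, (i.castSucc).val + 1 ≠ n + 1 := fun i => by simp; omega
    simp only [this, if_false, Finset.prod_const_one, one_mul, Fin.val_last, if_true]
    exact mul_inv_cancel₀ (AB_det hv)

/-- the element of `SL_n` -/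
noncomputable def toSL {R : ℝ} (v : AB k n R) : SLn n k := ⟨mat v.1, mat_det v.2⟩

theorem toSL_continuous {R : ℝ} : Continuous (toSL : AB k n R → SLn n k) := by
  refine Continuous.subtype_mk ?_ _
  have h1 : Continuous fun v : AB k n R => (Matrix.of v.1) := continuous_subtype_val
  have h2 : Continuous fun v : AB k n R => ((Matrix.of v.1).det)⁻¹ :=
    h1.matrix_det.inv₀ fun v => AB_det v.2
  refine h1.matrix_transpose.matrix_mul (Continuous.matrix_diagonal ?_)
  refine continuous_pi fun j => ?_
  by_cases h : j.val + 1 = n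
  · simpa only [h, if_true] using h2
  · simpa only [h, if_false] using continuous_const

theorem toSL_std {R : ℝ} {d : ℕ} {T : Submodule k (Fin n → k)} (v : AB k n R)
    (hvT : ∀ i : Fin n, i.val < d → v.1 i ∈ T) : toSL v • std k n d ≤ T := by
  rw [smul_le_iff]
  intro w hw
  have e : toSL v • w = ∑ i, (w i * if i.val + 1 = n then ((Matrix.of v.1).det)⁻¹ else 1) • v.1 i := by
    change mat v.1 *ᵥ w = _
    funext l
    simp only [mat, Matrix.mulVec, dotProduct, Matrix.mul_diagonal, Matrix.transpose_apply,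
      Matrix.of_apply, Finset.sum_apply, Pi.smul_apply, smul_eq_mul]
    refine Finset.sum_congr rfl fun i _ => ?_
    ring
  rw [e]
  refine Submodule.sum_mem _ fun i _ => ?_
  by_cases h : i.val < d
  · exact Submodule.smul_mem _ _ (hvT i h)
  · rw [hw i (not_lt.1 h), zero_mul, zero_smul]
    exact Submodule.zero_mem _

end riesz

section cpt

variable {k : Type*} [NontriviallyNormedField k] [CompleteSpace k] {n d e : ℕ}

/-- the standard point of `Gr` -/
def stdG (k : Type*) [Field k] {n d : ℕ} (h : d ≤ n) : Gr k n d := ⟨std k n d, finrank_std h⟩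

theorem exists_toSL {R : ℝ} {c : k} (hc : 1 < ‖c‖) (hR : ‖c‖ < R) (T : Gr k n d) :
    ∃ v : AB k n R, toSL v • stdG k (gr_le_dim T) = T := by
  obtain ⟨v, hv, h⟩ := exists_AB hc hR T.1 T.2
  exact ⟨⟨v, hv⟩, gr_eq_of_le (toSL_std ⟨v, hv⟩ h)⟩

theorem exists_smul_std (T : Gr k n d) : ∃ g : SLn n k, g • stdG k (gr_le_dim T) = T := by
  obtain ⟨c, hc⟩ := NormedField.exists_one_lt_norm k
  obtain ⟨v, hv⟩ := exists_toSL hc (lt_add_one ‖c‖) T
  exact ⟨_, hv⟩

instance : MulAction.IsPretransitive (SLn n k) (Gr k n d) where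
  exists_smul_eq S T := by
    obtain ⟨g, hg⟩ := exists_smul_std S
    obtain ⟨h, hh⟩ := exists_smul_std T
    refine ⟨h * g⁻¹, ?_⟩
    rw [mul_smul, ← hh]
    congr 1
    rw [inv_smul_eq_iff, hg]

theorem orb_surj (S : Gr k n d) : Function.Surjective fun g : SLn n k => g • S := fun T =>
  MulAction.exists_smul_eq (SLn n k) S T

/-- **the orbit maps are open quotient maps** -/
theorem orb_oq (S : Gr k n d) : IsOpenQuotientMap fun g : SLn n k => g • S :=
  ⟨orb_surj S, orb_continuous S, orb_open S⟩

instance cptGr [ProperSpace k] : CompactSpace (Gr k n d) := by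
  obtain ⟨c, hc⟩ := NormedField.exists_one_lt_norm k
  have hA : CompactSpace (AB k n (‖c‖ + 1)) := isCompact_iff_compactSpace.1 (AB_compact _)
  rcases isEmpty_or_nonempty (Gr k n d) with h | ⟨⟨T⟩⟩
  · infer_instance
  · have hd := gr_le_dim T
    have hsurj : Function.Surjective fun v : AB k n (‖c‖ + 1) => toSL v • stdG k hd :=
      fun T => exists_toSL hc (lt_add_one ‖c‖) T
    refine ⟨?_⟩
    rw [← Set.range_eq_univ.2 hsurj]
    exact isCompact_range ((orb_continuous _).comp toSL_continuous)

instance csmGr : ContinuousSMul (SLn n k) (Gr k n d) where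
  continuous_smul := by
    rcases isEmpty_or_nonempty (Gr k n d) with h | ⟨⟨S⟩⟩
    · exact continuous_of_const fun p q => (h.false p.2).elim
    · have hq : IsOpenQuotientMap (Prod.map (id : SLn n k → SLn n k)
          (fun g : SLn n k => g • S)) := IsOpenQuotientMap.id.prodMap (orb_oq S)
      rw [← hq.continuous_comp_iff]
      have : ((fun p : SLn n k × Gr k n d => p.1 • p.2) ∘ Prod.map id (fun g : SLn n k => g • S)) =
          (fun g : SLn n k => g • S) ∘ fun p : SLn n k × SLn n k => p.1 * p.2 := by
        funext p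
        exact (mul_smul p.1 p.2 S).symm
      rw [this]
      exact (orb_continuous S).comp continuous_mul

/-- **inclusion is closed** -/
theorem isClosed_le : IsClosed {p : Gr k n d × Gr k n e | p.1.1 ≤ p.2.1} := by
  rcases isEmpty_or_nonempty (Gr k n d) with h | ⟨⟨S⟩⟩
  · have : {p : Gr k n d × Gr k n e | p.1.1 ≤ p.2.1} = ∅ := eq_empty_of_forall_notMem fun p =>
      (h.false p.1).elim
    rw [this]
    exact isClosed_empty
  rcases isEmpty_or_nonempty (Gr k n e) with h | ⟨⟨T⟩⟩
  · have : {p : Gr k n d × Gr k n e | p.1.1 ≤ p.2.1} = ∅ := eq_empty_of_forall_notMem fun p =>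
      (h.false p.2).elim
    rw [this]
    exact isClosed_empty
  have hq := (orb_oq S).prodMap (orb_oq T)
  rw [← hq.isQuotientMap.isClosed_preimage]
  have : Prod.map (fun g : SLn n k => g • S) (fun g : SLn n k => g • T) ⁻¹'
      {p : Gr k n d × Gr k n e | p.1.1 ≤ p.2.1} =
      ⋂ v : S.1, (fun p : SLn n k × SLn n k => p.2⁻¹ • p.1 • (v : Fin n → k)) ⁻¹' T.1 := by
    ext p
    simp only [mem_preimage, mem_setOf_eq, Prod.map_fst, Prod.map_snd, mem_iInter, SetLike.mem_coe]
    rw [coe_smul, coe_smul, smul_le_smul_iff']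
    exact ⟨fun h v => h v.1 v.2, fun h v hv => h ⟨v, hv⟩⟩
  rw [this]
  refine isClosed_iInter fun v => (Submodule.closed_of_finiteDimensional T.1).preimage ?_
  exact continuous_snd.inv.smul (continuous_fst.smul continuous_const)

instance t2Gr : T2Space (Gr k n d) := by
  rw [t2_iff_isClosed_diagonal]
  have : diagonal (Gr k n d) = {p : Gr k n d × Gr k n d | p.1.1 ≤ p.2.1} := by
    ext p
    exact ⟨fun h => (congrArg Subtype.val h).le, fun h => gr_eq_of_le h⟩
  rw [this]
  exact isClosed_le

instance scGr [ProperSpace k] : SecondCountableTopology (Gr k n d) := by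
  rcases isEmpty_or_nonempty (Gr k n d) with h | ⟨⟨S⟩⟩
  · infer_instance
  have h1 : SecondCountableTopology (Matrix (Fin n) (Fin n) k) :=
    inferInstanceAs (SecondCountableTopology (Fin n → Fin n → k))
  have h2 : SecondCountableTopology (SLn n k) :=
    (Topology.IsInducing.subtypeVal (t := {A : Matrix (Fin n) (Fin n) k | A.det = 1})).secondCountableTopology
  exact (orb_oq S).isQuotientMap.secondCountableTopology (orb_oq S).isOpenMap

end cpt

end Vale.Agent.P092.H947
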